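import Vale.Agent.P139.H769.WA2
import Vale.Agent.P139.BU.WX

/-!
# Block WA, file 3: weighted `L¹` densities, translations, multiplication
-/

open MeasureTheory Filter Topology Set
open scoped ENNReal NNReal FourierTransform

namespace Vale.Agent.P139.WA

section Vec

variable {α : Type*} [MeasurableSpace α] {μ : Measure α}
variable {G : Type*} [NormedAddCommGroup G] [NormedSpace ℂ G]

/-- The rank one operator `x ↦ x • v`. -/
noncomputable def r1 (v : G) : ℂ →L[ℂ] G := ContinuousLinearMap.smulRight (1 : ℂ →L[ℂ] ℂ) v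

@[simp] theorem r1_apply (v : G) (x : ℂ) : r1 v x = x • v := by simp [r1]

@[simp] theorem norm_r1 (v : G) : ‖r1 v‖ = ‖v‖ := by
  simp [r1, ContinuousLinearMap.norm_smulRight_apply]

theorem continuous_r1 : Continuous (r1 : G → ℂ →L[ℂ] G) :=
  (ContinuousLinearMap.smulRightL ℂ ℂ G 1).continuous

/-- Bounded strongly measurable vector family. -/
def BddVec (μ : Measure α) (Φ : α → G) : Prop :=
  AEStronglyMeasurable Φ μ ∧ ∃ C : ℝ, ∀ᵐ x ∂μ, ‖Φ x‖ ≤ C

theorem BddVec.fam {Φ : α → G} (h : BddVec μ Φ) : BddFam μ (fun x => r1 (Φ x)) := by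
  obtain ⟨C, hC⟩ := h.2
  refine ⟨continuous_r1.comp_aestronglyMeasurable h.1, C, ?_⟩
  filter_upwards [hC] with x hx
  rwa [norm_r1]

/-- `ψ ↦ ∫ ψ x • Φ x`. -/
noncomputable def vecOp (Φ : α → G) (h : BddVec μ Φ) : Lp ℂ 1 μ →L[ℂ] G :=
  bochOp (fun x => r1 (Φ x)) h.fam

theorem vecOp_apply (Φ : α → G) (h : BddVec μ Φ) (ψ : Lp ℂ 1 μ) :
    vecOp Φ h ψ = ∫ x, ψ x • Φ x ∂μ := by
  rw [vecOp, bochOp_apply]
  simp

theorem BddVec.integrable {Φ : α → G} (h : BddVec μ Φ) (ψ : Lp ℂ 1 μ) :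
    Integrable (fun x => ψ x • Φ x) μ := by
  have := h.fam.integrable (L1.integrable_coeFn ψ)
  simpa using this

theorem norm_vecOp_apply_le (Φ : α → G) (h : BddVec μ Φ) (ψ : Lp ℂ 1 μ) :
    ‖vecOp Φ h ψ‖ ≤ ∫ x, ‖Φ x‖ * ‖ψ x‖ ∂μ := by
  have := norm_bochOp_apply_le (fun x => r1 (Φ x)) h.fam ψ
  simp only [norm_r1] at this
  exact this

theorem norm_vecOp_le (Φ : α → G) (h : BddVec μ Φ) {C : ℝ} (hC0 : 0 ≤ C)
    (hC : ∀ᵐ x ∂μ, ‖Φ x‖ ≤ C) : ‖vecOp Φ h‖ ≤ C :=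
  norm_bochOp_le _ _ hC0 (by filter_upwards [hC] with x hx; rwa [norm_r1])

theorem clm_vecOp [CompleteSpace G] {H : Type*} [NormedAddCommGroup H] [NormedSpace ℂ H]
    [CompleteSpace H] {Φ : α → G} (h : BddVec μ Φ) (T : G →L[ℂ] H) (ψ : Lp ℂ 1 μ) :
    T (vecOp Φ h ψ) = ∫ x, ψ x • T (Φ x) ∂μ := by
  rw [vecOp_apply, ← ContinuousLinearMap.integral_comp_comm T (h.integrable ψ)]
  simp

end Vec

section XK

open BU

variable {d s : ℕ} {κ : ℝ}

instance instLF_nuK (s : ℕ) (κ : ℝ) : IsLocallyFiniteMeasure (nuK d s κ) :=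
  IsLocallyFiniteMeasure.withDensity_ofReal (continuous_wt κ s)

theorem norm_add_pow_le (s : ℕ) (ξ η : E d) : ‖ξ + η‖ ^ s ≤ 2 ^ s * (‖ξ‖ ^ s + ‖η‖ ^ s) := by
  calc ‖ξ + η‖ ^ s ≤ (‖ξ‖ + ‖η‖) ^ s := by gcongr; exact norm_add_le _ _
    _ ≤ 2 ^ (s - 1) * (‖ξ‖ ^ s + ‖η‖ ^ s) := add_pow_le (norm_nonneg _) (norm_nonneg _) s
    _ ≤ 2 ^ s * (‖ξ‖ ^ s + ‖η‖ ^ s) := by
        gcongr
        · norm_num
        · omega

theorem wt_add_le (hκ : 0 ≤ κ) (s : ℕ) (ξ η : E d) :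
    wt κ s (ξ + η) ≤ 2 ^ s * wt κ s ξ * wt κ s η := by
  have h1 := norm_add_pow_le s ξ η
  unfold wt
  have h2 : (1 : ℝ) ≤ 2 ^ s := one_le_pow₀ (by norm_num)
  have hx : 0 ≤ κ * ‖ξ‖ ^ s := by positivity
  have hy : 0 ≤ κ * ‖η‖ ^ s := by positivity
  calc 1 + κ * ‖ξ + η‖ ^ s ≤ 2 ^ s + κ * (2 ^ s * (‖ξ‖ ^ s + ‖η‖ ^ s)) := by gcongr
    _ ≤ 2 ^ s * (1 + κ * ‖ξ‖ ^ s) * (1 + κ * ‖η‖ ^ s) := by
        have : 0 ≤ (2 : ℝ) ^ s * ((κ * ‖ξ‖ ^ s) * (κ * ‖η‖ ^ s)) := by positivity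
        nlinarith

/-- Translates: `map (· - η) nuK ≤ 2^s wt(η) nuK`. -/
theorem map_sub_nuK_le (hκ : 0 ≤ κ) (η : E d) :
    (nuK d s κ).map (fun ξ => ξ - η) ≤ (Real.toNNReal (2 ^ s * wt κ s η)) • nuK d s κ := by
  have hg : Measurable (fun ξ : E d => ξ - η) := measurable_id.sub_const η
  rw [Measure.le_iff]
  intro A hA
  rw [Measure.map_apply hg hA, Measure.smul_apply, nuK, withDensity_apply _ (hg hA),
    withDensity_apply _ hA, ← lintegral_indicator (hg hA), ← lintegral_indicator hA]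
  have h1 : ∀ ξ : E d, ((fun ξ : E d => ξ - η) ⁻¹' A).indicator
      (fun ξ => ENNReal.ofReal (wt κ s ξ)) ξ =
      A.indicator (fun ζ => ENNReal.ofReal (wt κ s (ζ + η))) (ξ - η) := by
    intro ξ
    by_cases h : ξ - η ∈ A
    · simp [h]
    · simp [h]
  simp_rw [h1]
  rw [lintegral_sub_right_eq_self (fun ζ => A.indicator
    (fun ζ => ENNReal.ofReal (wt κ s (ζ + η))) ζ) η]
  rw [ENNReal.smul_def, smul_eq_mul, ← lintegral_const_mul _
    ((meas_wt κ s).indicator hA)]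
  refine lintegral_mono fun ζ => ?_
  by_cases h : ζ ∈ A
  · simp only [h, indicator_of_mem]
    have h2 : 0 ≤ 2 ^ s * wt κ s η := by
      have := wt_pos hκ s η
      positivity
    change _ ≤ ENNReal.ofReal (2 ^ s * wt κ s η) * _
    rw [← ENNReal.ofReal_mul h2]
    refine ENNReal.ofReal_le_ofReal ?_
    have := wt_add_le hκ s ζ η
    linarith
  · simp [h]

/-- Translation operator on `XK`: `(transX η f)(ξ) = f (ξ - η)`. -/
noncomputable def transX (hκ : 0 ≤ κ) (η : E d) : XK d s κ →L[ℂ] XK d s κ :=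
  compOp (fun ξ => ξ - η) (measurable_id.sub_const η) _ (map_sub_nuK_le hκ η)

theorem transX_coeFn (hκ : 0 ≤ κ) (η : E d) (f : XK d s κ) :
    (transX hκ η f : E d → ℂ) =ᵐ[nuK d s κ] fun ξ => f (ξ - η) :=
  compOp_coeFn _ _ _ _ f

theorem norm_transX_le (hκ : 0 ≤ κ) (η : E d) :
    ‖(transX hκ η : XK d s κ →L[ℂ] XK d s κ)‖ ≤ 2 ^ s * wt κ s η := by
  refine (norm_compOp_le _ _ _ _).trans_eq ?_
  rw [Real.coe_toNNReal]
  have := wt_pos hκ s η
  positivity

theorem tendsto_transX (hκ : 0 ≤ κ) (η0 : E d) (f : XK d s κ) :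
    Tendsto (fun η => transX hκ η f) (𝓝 η0) (𝓝 (transX hκ η0 f)) := by
  have hb : ∀ᶠ η in 𝓝 η0, ‖(transX hκ η : XK d s κ →L[ℂ] XK d s κ)‖ ≤
      2 ^ s * wt κ s η0 + 1 := by
    have hc : Continuous (fun η : E d => (2 : ℝ) ^ s * wt κ s η) :=
      continuous_const.mul (continuous_wt κ s)
    filter_upwards [hc.continuousAt.eventually (gt_mem_nhds (lt_add_one (2 ^ s * wt κ s η0)))]
      with η hη
    exact (norm_transX_le hκ η).trans hη.le
  refine tendsto_clm_of_dense hb (dense_cc (F := ℂ) (nuK d s κ)) ?_ f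
  rintro _ ⟨g, hgc, hgs, hgi, rfl⟩
  rw [tendsto_iff_norm_sub_tendsto_zero]
  have h1 : ∀ η, ‖transX hκ η (hgi.toL1 g) - transX hκ η0 (hgi.toL1 g)‖ =
      ∫ ξ, ‖g (ξ - η) - g (ξ - η0)‖ ∂(nuK d s κ) := by
    intro η
    rw [L1.norm_eq_integral_norm]
    refine integral_congr_ae ?_
    have q1 := (qmp_of_map_le (measurable_id.sub_const η) (map_sub_nuK_le (s := s) hκ η)).ae
      hgi.coeFn_toL1
    have q2 := (qmp_of_map_le (measurable_id.sub_const η0) (map_sub_nuK_le (s := s) hκ η0)).ae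
      hgi.coeFn_toL1
    filter_upwards [Lp.coeFn_sub (transX hκ η (hgi.toL1 g)) (transX hκ η0 (hgi.toL1 g)),
      transX_coeFn hκ η (hgi.toL1 g), transX_coeFn hκ η0 (hgi.toL1 g), q1, q2]
      with ξ e1 e2 e3 e4 e5
    rw [e1, Pi.sub_apply, e2, e3]
    simp only [id] at e4 e5
    rw [e4, e5]
  simp_rw [h1]
  refine tendsto_integral_norm_sub_of_compact (nuK d s κ) (b := fun η ξ => g (ξ - η))
    (Metric.closedBall_mem_nhds η0 one_pos)
    (K := (fun p : E d × E d => p.1 + p.2) '' (tsupport g ×ˢ Metric.closedBall η0 1))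
    ((hgs.isCompact.prod (isCompact_closedBall η0 1)).image (by fun_prop)) ?_ ?_
  · exact (hgc.comp (by fun_prop : Continuous fun p : E d × E d => p.2 - p.1)).continuousOn
  · intro η hη ξ hξ
    by_contra h
    refine hξ ⟨(ξ - η, η), ⟨subset_tsupport _ h, hη⟩, by simp⟩

theorem continuous_transX (hκ : 0 ≤ κ) (f : XK d s κ) : Continuous (fun η => transX hκ η f) :=
  continuous_iff_continuousAt.2 fun η => tendsto_transX hκ η f

/-! ### The column `η ↦ (wt η)⁻¹ • τ_η V` and multiplication -/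

/-- the column `η ↦ (wt η)⁻¹ • τ_η V` -/
noncomputable def mcol (hκ : 0 ≤ κ) (V : XK d s κ) (η : E d) : XK d s κ :=
  (((wt κ s η)⁻¹ : ℝ) : ℂ) • transX hκ η V

theorem norm_transX_apply_le (hκ : 0 ≤ κ) (V : XK d s κ) (η : E d) :
    ‖transX hκ η V‖ ≤ 2 ^ s * wt κ s η * ‖V‖ :=
  (transX hκ η).le_of_opNorm_le (norm_transX_le hκ η) V

theorem norm_mcol (hκ : 0 ≤ κ) (V : XK d s κ) (η : E d) :
    ‖mcol hκ V η‖ = (wt κ s η)⁻¹ * ‖transX hκ η V‖ := by
  have h := wt_pos hκ s η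
  rw [mcol, norm_smul, Complex.norm_real, Real.norm_of_nonneg (inv_nonneg.2 h.le)]

theorem norm_mcol_le (hκ : 0 ≤ κ) (V : XK d s κ) (η : E d) :
    ‖mcol hκ V η‖ ≤ 2 ^ s * ‖V‖ := by
  have h := wt_pos hκ s η
  rw [norm_mcol]
  calc (wt κ s η)⁻¹ * ‖transX hκ η V‖ ≤ (wt κ s η)⁻¹ * (2 ^ s * wt κ s η * ‖V‖) := by
        gcongr
        exact norm_transX_apply_le hκ V η
    _ = 2 ^ s * ‖V‖ := by field_simp

theorem continuous_mcol (hκ : 0 ≤ κ) (V : XK d s κ) : Continuous (mcol hκ V) := by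
  have h : Continuous (fun η : E d => (((wt κ s η)⁻¹ : ℝ) : ℂ)) :=
    Complex.continuous_ofReal.comp
      ((continuous_wt κ s).inv₀ fun η => (wt_pos hκ s η).ne')
  exact h.smul (continuous_transX hκ V)

theorem bddVec_mcol (hκ : 0 ≤ κ) (V : XK d s κ) : BddVec (nuK d s κ) (mcol hκ V) :=
  ⟨(continuous_mcol hκ V).aestronglyMeasurable, 2 ^ s * ‖V‖,
    Eventually.of_forall (norm_mcol_le hκ V)⟩

/-- Multiplication by (the function of) `V` on densities: `mulX V f = ∫ f(η) • τ_η V dη`. -/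
noncomputable def mulX (hκ : 0 ≤ κ) (V : XK d s κ) : XK d s κ →L[ℂ] XK d s κ :=
  vecOp (mcol hκ V) (bddVec_mcol hκ V)

theorem norm_mulX_le (hκ : 0 ≤ κ) (V : XK d s κ) : ‖mulX hκ V‖ ≤ 2 ^ s * ‖V‖ :=
  norm_vecOp_le _ _ (by positivity) (Eventually.of_forall (norm_mcol_le hκ V))

/-- Column estimate. -/
theorem norm_mulX_apply_le (hκ : 0 ≤ κ) (V f : XK d s κ) :
    ‖mulX hκ V f‖ ≤ ∫ η, ‖mcol hκ V η‖ * ‖f η‖ ∂(nuK d s κ) :=
  norm_vecOp_apply_le _ _ f

theorem clm_mulX {H : Type*} [NormedAddCommGroup H] [NormedSpace ℂ H] [CompleteSpace H]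
    (hκ : 0 ≤ κ) (V f : XK d s κ) (T : XK d s κ →L[ℂ] H) :
    T (mulX hκ V f) = ∫ η, f η • T (transX hκ η V) := by
  rw [mulX, clm_vecOp, integral_nuK hκ]
  refine integral_congr_ae (Eventually.of_forall fun η => ?_)
  have h := wt_pos hκ s η
  simp only [mcol, map_smul]
  rw [← Complex.coe_smul (wt κ s η), smul_smul, smul_smul]
  congr 1
  push_cast
  have h' : ((wt κ s η : ℝ) : ℂ) ≠ 0 := by exact_mod_cast h.ne'
  field_simp

theorem mulX_apply (hκ : 0 ≤ κ) (V f : XK d s κ) :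
    mulX hκ V f = ∫ η, f η • transX hκ η V := by
  exact clm_mulX hκ V f (ContinuousLinearMap.id ℂ (XK d s κ))

theorem coe_transX (hκ : 0 ≤ κ) (η : E d) (f : XK d s κ) :
    (transX hκ η f : E d → ℂ) =ᵐ[volume] fun ξ => f (ξ - η) :=
  (ac_nuK hκ).ae_le (transX_coeFn hκ η f)

open Real InnerProductSpace in
theorem ev_transX (hκ : 0 ≤ κ) (η : E d) (f : XK d s κ) (y : E d) :
    ev (transX hκ η f) y = 𝐞 ⟪η, y⟫_ℝ • ev f y := by
  rw [ev_apply, ev_apply, Circle.smul_def, smul_eq_mul, ← integral_const_mul,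
    ← integral_sub_right_eq_self
      (fun ξ => (𝐞 ⟪η, y⟫_ℝ : ℂ) * (𝐞 ⟪ξ, y⟫_ℝ • f ξ)) η]
  refine integral_congr_ae ?_
  filter_upwards [coe_transX hκ η f] with ξ hξ
  have h1 : ⟪ξ, y⟫_ℝ = ⟪η, y⟫_ℝ + ⟪ξ - η, y⟫_ℝ := by
    rw [← inner_add_left]; congr 1; abel
  rw [hξ, h1, AddChar.map_add_eq_mul, Circle.smul_def, Circle.smul_def, smul_eq_mul,
    smul_eq_mul, Circle.coe_mul, mul_assoc]

open Real InnerProductSpace in
/-- **Product rule**: `mulX V f` represents the pointwise product. -/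
theorem ev_mulX (hκ : 0 ≤ κ) (V f : XK d s κ) (y : E d) :
    ev (mulX hκ V f) y = ev V y * ev f y := by
  rw [← evL_apply hκ, clm_mulX hκ V f (evL hκ y)]
  simp only [evL_apply, ev_transX]
  rw [ev_apply f, ← integral_const_mul]
  refine integral_congr_ae (Eventually.of_forall fun η => ?_)
  simp only [Circle.smul_def, smul_eq_mul]
  ring

theorem mulX_add_left (hκ : 0 ≤ κ) (V W f : XK d s κ) :
    mulX hκ (V + W) f = mulX hκ V f + mulX hκ W f := by
  apply ev_injective hκ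
  intro y
  simp only [ev_mulX, ev_add hκ]
  ring

theorem mulX_smul_left (hκ : 0 ≤ κ) (c : ℂ) (V f : XK d s κ) :
    mulX hκ (c • V) f = c • mulX hκ V f := by
  apply ev_injective hκ
  intro y
  simp only [ev_mulX, ev_smul hκ]
  ring

theorem mulX_comm (hκ : 0 ≤ κ) (V f : XK d s κ) : mulX hκ V f = mulX hκ f V := by
  apply ev_injective hκ
  intro y
  simp only [ev_mulX]
  ring

theorem mulX_assoc (hκ : 0 ≤ κ) (V W f : XK d s κ) :
    mulX hκ (mulX hκ V W) f = mulX hκ V (mulX hκ W f) := by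
  apply ev_injective hκ
  intro y
  simp only [ev_mulX]
  ring

theorem starX_mulX (hκ : 0 ≤ κ) (V f : XK d s κ) :
    starX hκ (mulX hκ V f) = mulX hκ (starX hκ V) (starX hκ f) := by
  apply ev_injective hκ
  intro y
  simp only [ev_mulX, ev_starX, map_mul]

theorem mulX_sub_left (hκ : 0 ≤ κ) (V W f : XK d s κ) :
    mulX hκ (V - W) f = mulX hκ V f - mulX hκ W f := by
  apply ev_injective hκ
  intro y
  simp only [ev_mulX, ev_sub hκ]
  ring

/-- `mulX` as a bounded bilinear map. -/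
noncomputable def mulXL (hκ : 0 ≤ κ) : XK d s κ →L[ℂ] XK d s κ →L[ℂ] XK d s κ :=
  LinearMap.mkContinuous
    { toFun := fun V => mulX hκ V
      map_add' := fun V W => ContinuousLinearMap.ext fun f => by
        rw [mulX_add_left]; rfl
      map_smul' := fun c V => ContinuousLinearMap.ext fun f => by
        rw [mulX_smul_left]; rfl }
    (2 ^ s) (fun V => norm_mulX_le hκ V)

@[simp] theorem mulXL_apply (hκ : 0 ≤ κ) (V : XK d s κ) : mulXL hκ V = mulX hκ V := rfl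

theorem norm_mulX_apply_le' (hκ : 0 ≤ κ) (V f : XK d s κ) :
    ‖mulX hκ V f‖ ≤ 2 ^ s * ‖V‖ * ‖f‖ :=
  (mulX hκ V).le_of_opNorm_le (norm_mulX_le hκ V) f

/-- **Weighted column estimate** for an arbitrary continuous weight `0 ≤ w ≤ C wt`. -/
theorem moment_mulX_le (hκ : 0 ≤ κ) (V f : XK d s κ) {w : E d → ℝ} (hw : Continuous w)
    {C : ℝ} (hw0 : ∀ ξ, 0 ≤ w ξ) (hwC : ∀ ξ, w ξ ≤ C * wt κ s ξ) :
    ∫ ξ, w ξ * ‖mulX hκ V f ξ‖ ≤ ∫ η, (∫ ξ, w (ξ + η) * ‖V ξ‖) * ‖f η‖ := by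
  have hC : 0 ≤ C := by
    by_contra h
    have h1 := hw0 0
    have h2 := hwC 0
    have h3 := wt_pos hκ s (0 : E d)
    nlinarith
  set ρ : Measure (E d) := volume.withDensity (fun ξ => ENNReal.ofReal (w ξ)) with hρ
  have hm : Measurable (fun ξ => ENNReal.ofReal (w ξ)) := hw.measurable.ennreal_ofReal
  have hle : (ρ.map (fun ξ => ξ)) ≤ (Real.toNNReal C) • nuK d s κ := by
    rw [Measure.map_id', Measure.le_iff]
    intro A hA
    rw [hρ, Measure.smul_apply, nuK, withDensity_apply _ hA, withDensity_apply _ hA,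
      ENNReal.smul_def, smul_eq_mul, ← lintegral_const_mul _ (meas_wt κ s)]
    refine lintegral_mono fun ξ => ?_
    change _ ≤ ENNReal.ofReal C * _
    rw [← ENNReal.ofReal_mul hC]
    exact ENNReal.ofReal_le_ofReal (hwC ξ)
  let T : XK d s κ →L[ℂ] Lp ℂ 1 ρ := compOp (fun ξ => ξ) measurable_id _ hle
  have hT : ∀ g : XK d s κ, ‖T g‖ = ∫ ξ, w ξ * ‖g ξ‖ := by
    intro g
    rw [L1.norm_eq_integral_norm]
    have h1 : ∫ ξ, ‖T g ξ‖ ∂ρ = ∫ ξ, ‖g ξ‖ ∂ρ := by
      refine integral_congr_ae ?_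
      filter_upwards [compOp_coeFn (fun ξ => ξ) measurable_id _ hle g] with ξ hξ
      rw [hξ]
    rw [h1, hρ, integral_withDensity_eq_integral_toReal_smul hm
      (Eventually.of_forall fun _ => ENNReal.ofReal_lt_top)]
    simp only [ENNReal.toReal_ofReal (hw0 _), smul_eq_mul]
  have hTt : ∀ η, ‖T (transX hκ η V)‖ = ∫ ξ, w (ξ + η) * ‖V ξ‖ := by
    intro η
    rw [hT, ← integral_sub_right_eq_self (fun ξ => w (ξ + η) * ‖V ξ‖) η]
    refine integral_congr_ae ?_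
    filter_upwards [coe_transX hκ η V] with ξ hξ
    rw [hξ, sub_add_cancel]
  rw [← hT, clm_mulX hκ V f T]
  simp_rw [← hTt]
  refine norm_integral_le_of_norm_le ?_ (Eventually.of_forall fun η => ?_)
  · have hcont : Continuous (fun η => ‖T (transX hκ η V)‖) :=
      (T.continuous.comp (continuous_transX hκ V)).norm
    have hint : Integrable (fun η => (‖T‖ * (2 ^ s * ‖V‖)) * (wt κ s η * ‖f η‖)) :=
      (XK.integrable_wt hκ f).const_mul _
    refine hint.mono (hcont.aestronglyMeasurable.mul (XK.aesm hκ f).norm)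
      (Eventually.of_forall fun η => ?_)
    have h0 := (wt_pos hκ s η).le
    rw [Real.norm_of_nonneg (by positivity), Real.norm_of_nonneg (by positivity)]
    calc ‖T (transX hκ η V)‖ * ‖f η‖ ≤ (‖T‖ * (2 ^ s * wt κ s η * ‖V‖)) * ‖f η‖ := by
          gcongr
          exact (T.le_opNorm _).trans (by gcongr; exact norm_transX_apply_le hκ V η)
      _ = _ := by ring
  · rw [norm_smul, mul_comm]

/-- `∫ ‖mulX V f‖ ≤ ∫ ‖V‖ ∫ ‖f‖`. -/
theorem integral_norm_mulX_le (hκ : 0 ≤ κ) (V f : XK d s κ) :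
    ∫ ξ, ‖mulX hκ V f ξ‖ ≤ (∫ ξ, ‖V ξ‖) * ∫ η, ‖f η‖ := by
  have h := moment_mulX_le hκ V f (w := fun _ => 1) continuous_const (C := 1)
    (fun _ => zero_le_one) (fun ξ => by rw [one_mul]; exact one_le_wt hκ s ξ)
  simp only [one_mul] at h
  rwa [integral_const_mul] at h

/-! ### Compactness -/

/-- **Compactness** of `V` times a bounded multiplier `m` with bounded support
(sharp cut-off `1_{‖ξ‖ ≤ N}` or smooth cut-off); `T` is any operator acting by `m`. -/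
theorem isCompactOperator_mulX_comp (hκ : 0 ≤ κ) (V : XK d s κ) {m : E d → ℂ}
    (hm : Measurable m) {C N : ℝ} (hC : ∀ η, ‖m η‖ ≤ C) (hN : ∀ η, N < ‖η‖ → m η = 0)
    (T : XK d s κ →L[ℂ] XK d s κ)
    (hT : ∀ f, (T f : E d → ℂ) =ᵐ[volume] fun ξ => m ξ * f ξ) :
    IsCompactOperator (mulX hκ V ∘L T) := by
  set Φ : E d → ℂ →L[ℂ] XK d s κ := fun η => r1 (m η • mcol hκ V η) with hΦ
  have hsm : StronglyMeasurable Φ := by
    have h1 : StronglyMeasurable (fun η => m η • mcol hκ V η) :=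
      hm.stronglyMeasurable.smul (continuous_mcol hκ V).stronglyMeasurable
    exact continuous_r1.comp_stronglyMeasurable h1
  have hC0 : 0 ≤ C := (norm_nonneg _).trans (hC 0)
  have hbd : BddFam (nuK d s κ) Φ := BddFam.mk' hsm.aestronglyMeasurable (C * (2 ^ s * ‖V‖)) (by
    intro η
    rw [hΦ, norm_r1, norm_smul]
    gcongr
    · exact hC η
    · exact norm_mcol_le hκ V η)
  have heq : mulX hκ V ∘L T = bochOp Φ hbd := by
    refine ContinuousLinearMap.ext fun f => ?_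
    rw [ContinuousLinearMap.comp_apply, mulX, vecOp_apply, bochOp_apply]
    refine integral_congr_ae ?_
    filter_upwards [(ae_nuK hκ).2 (hT f)] with η hη
    rw [hη, hΦ, r1_apply, smul_smul, mul_comm]
  rw [heq]
  refine isCompactOperator_bochOp_of_totallyBounded hbd hsm ?_
  set M := max N 0 with hM
  have hK : IsCompact ((fun p : ℂ × E d => r1 (p.1 • mcol hκ V p.2)) ''
      (Metric.closedBall (0 : ℂ) C ×ˢ Metric.closedBall (0 : E d) M)) := by
    refine ((isCompact_closedBall _ _).prod (isCompact_closedBall _ _)).image ?_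
    exact continuous_r1.comp (continuous_fst.smul ((continuous_mcol hκ V).comp continuous_snd))
  refine hK.totallyBounded.subset ?_
  rintro _ ⟨η, rfl⟩
  by_cases hη : ‖η‖ ≤ M
  · exact ⟨(m η, η), ⟨by simpa using hC η, by simpa using hη⟩, rfl⟩
  · have h0 : m η = 0 := hN η (lt_of_le_of_lt (le_max_left _ _) (not_le.1 hη))
    refine ⟨(0, 0), ⟨by simpa using hC0, by simp [hM]⟩, ?_⟩
    simp [hΦ, h0]

/-- Multiplier operator on densities. -/
noncomputable def cutX (m : E d → ℂ) (hm : Measurable m) (C : ℝ) (hC : ∀ η, ‖m η‖ ≤ C) :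
    XK d s κ →L[ℂ] XK d s κ :=
  multOp (fun η => m η • ContinuousLinearMap.id ℂ ℂ)
    (BddFam.mk' ((hm.stronglyMeasurable.smul stronglyMeasurable_const).aestronglyMeasurable) C
      (fun η => by
        rw [norm_smul, ContinuousLinearMap.norm_id, mul_one]
        exact hC η))

theorem coe_cutX (hκ : 0 ≤ κ) (m : E d → ℂ) (hm : Measurable m) (C : ℝ) (hC : ∀ η, ‖m η‖ ≤ C)
    (f : XK d s κ) : (cutX m hm C hC f : E d → ℂ) =ᵐ[volume] fun ξ => m ξ * f ξ := by
  refine (ac_nuK (s := s) hκ).ae_le ?_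
  filter_upwards [multOp_coeFn (fun η => m η • ContinuousLinearMap.id ℂ ℂ)
    (BddFam.mk' ((hm.stronglyMeasurable.smul stronglyMeasurable_const).aestronglyMeasurable) C
      (fun η => by
        rw [norm_smul, ContinuousLinearMap.norm_id, mul_one]
        exact hC η)) f] with ξ hξ
  rw [cutX, hξ]
  simp

theorem norm_cutX_le (m : E d → ℂ) (hm : Measurable m) (C : ℝ) (hC : ∀ η, ‖m η‖ ≤ C) :
    ‖(cutX m hm C hC : XK d s κ →L[ℂ] XK d s κ)‖ ≤ C :=
  norm_multOp_le _ _ ((norm_nonneg _).trans (hC 0)) (Eventually.of_forall fun η => by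
    rw [norm_smul, ContinuousLinearMap.norm_id, mul_one]
    exact hC η)

/-- The sharp frequency cut-off `1_{‖ξ‖ ≤ N}`. -/
noncomputable def lowX (N : ℝ) : XK d s κ →L[ℂ] XK d s κ :=
  cutX ((Metric.closedBall (0 : E d) N).indicator fun _ => (1 : ℂ))
    (measurable_const.indicator measurableSet_closedBall) 1 (fun η => by
      by_cases h : η ∈ Metric.closedBall (0 : E d) N <;> simp [h])

theorem coe_lowX (hκ : 0 ≤ κ) (N : ℝ) (f : XK d s κ) : (lowX N f : E d → ℂ) =ᵐ[volume]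
    fun ξ => (if ‖ξ‖ ≤ N then f ξ else 0) := by
  filter_upwards [coe_cutX hκ ((Metric.closedBall (0 : E d) N).indicator fun _ => (1 : ℂ))
    (measurable_const.indicator measurableSet_closedBall) 1 (fun η => by
      by_cases h : η ∈ Metric.closedBall (0 : E d) N <;> simp [h]) f] with ξ hξ
  rw [lowX, hξ]
  by_cases h : ‖ξ‖ ≤ N
  · simp [h, Set.indicator]
  · simp [h, Set.indicator]

/-- `V` times the sharp low frequency projection is compact. -/
theorem isCompactOperator_mulX_lowX (hκ : 0 ≤ κ) (V : XK d s κ) (N : ℝ) :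
    IsCompactOperator (mulX hκ V ∘L (lowX N : XK d s κ →L[ℂ] XK d s κ)) := by
  refine isCompactOperator_mulX_comp hκ V
    (m := (Metric.closedBall (0 : E d) N).indicator fun _ => (1 : ℂ))
    (measurable_const.indicator measurableSet_closedBall) (C := 1) (N := N) ?_ ?_ _ ?_
  · intro η
    by_cases h : η ∈ Metric.closedBall (0 : E d) N <;> simp [h]
  · intro η h
    rw [Set.indicator_of_notMem]
    simpa using h
  · intro f
    exact coe_cutX hκ _ _ _ _ f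

end XK

end Vale.Agent.P139.WA
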