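import Mathlib

/-!
# Block WA, file 1: operators on `L¹` spaces of densities

General toolkit used by the Wiener-algebra part of P139:

* `bochOp`   : `ψ ↦ ∫ Φ x (ψ x)` for a bounded strongly measurable operator valued family `Φ`;
* `multOp`   : `ψ ↦ (x ↦ M x (ψ x))` for a bounded strongly measurable family `M`;
* `isCompactOperator_bochOp` : `bochOp` of a continuous compactly supported family is compact.
-/

open MeasureTheory Filter Topology Set
open scoped ENNReal NNReal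

namespace Vale.Agent.P139.WA

section Boch

variable {α : Type*} [MeasurableSpace α] {μ : Measure α}
variable {F : Type*} [NormedAddCommGroup F] [NormedSpace ℂ F]
variable {G : Type*} [NormedAddCommGroup G] [NormedSpace ℂ G]

/-- A strongly measurable, essentially bounded family of operators. -/
def BddFam (μ : Measure α) (Φ : α → F →L[ℂ] G) : Prop :=
  AEStronglyMeasurable Φ μ ∧ ∃ C : ℝ, ∀ᵐ x ∂μ, ‖Φ x‖ ≤ C

theorem BddFam.mk' {Φ : α → F →L[ℂ] G} (h : AEStronglyMeasurable Φ μ) (C : ℝ)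
    (hC : ∀ x, ‖Φ x‖ ≤ C) : BddFam μ Φ := ⟨h, C, Eventually.of_forall hC⟩

theorem BddFam.aesm_apply {Φ : α → F →L[ℂ] G} (h : BddFam μ Φ) {ψ : α → F}
    (hψ : AEStronglyMeasurable ψ μ) : AEStronglyMeasurable (fun x => Φ x (ψ x)) μ :=
  (ContinuousLinearMap.apply ℂ G).flip.aestronglyMeasurable_comp₂ h.1 hψ

theorem BddFam.integrable {Φ : α → F →L[ℂ] G} (h : BddFam μ Φ) {ψ : α → F}
    (hψ : Integrable ψ μ) : Integrable (fun x => Φ x (ψ x)) μ := by
  obtain ⟨C, hC⟩ := h.2
  refine (hψ.norm.const_mul C).mono' (h.aesm_apply hψ.1) ?_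
  filter_upwards [hC] with x hx
  exact (le_trans ((Φ x).le_opNorm _) (mul_le_mul_of_nonneg_right hx (norm_nonneg _)))

/-- `‖Φ x‖ * ‖ψ x‖` is integrable. -/
theorem BddFam.integrable_norm {Φ : α → F →L[ℂ] G} (h : BddFam μ Φ) {ψ : α → F}
    (hψ : Integrable ψ μ) : Integrable (fun x => ‖Φ x‖ * ‖ψ x‖) μ := by
  obtain ⟨C, hC⟩ := h.2
  refine (hψ.norm.const_mul C).mono' (h.1.norm.mul hψ.1.norm) ?_
  filter_upwards [hC] with x hx
  rw [Real.norm_of_nonneg (mul_nonneg (norm_nonneg _) (norm_nonneg _))]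
  exact mul_le_mul_of_nonneg_right hx (norm_nonneg _)

theorem BddFam.norm_integral_le {Φ : α → F →L[ℂ] G} (h : BddFam μ Φ) {ψ : α → F}
    (hψ : Integrable ψ μ) : ‖∫ x, Φ x (ψ x) ∂μ‖ ≤ ∫ x, ‖Φ x‖ * ‖ψ x‖ ∂μ :=
  norm_integral_le_of_norm_le (h.integrable_norm hψ)
    (Eventually.of_forall fun x => (Φ x).le_opNorm _)

/-- The operator `ψ ↦ ∫ Φ x (ψ x)` on `L¹`. -/
noncomputable def bochOp (Φ : α → F →L[ℂ] G) (h : BddFam μ Φ) : Lp F 1 μ →L[ℂ] G :=
  LinearMap.mkContinuousOfExistsBound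
    { toFun := fun ψ => ∫ x, Φ x (ψ x) ∂μ
      map_add' := fun ψ₁ ψ₂ => by
        rw [← integral_add (h.integrable (L1.integrable_coeFn ψ₁))
          (h.integrable (L1.integrable_coeFn ψ₂))]
        refine integral_congr_ae ?_
        filter_upwards [Lp.coeFn_add ψ₁ ψ₂] with x hx
        rw [hx, Pi.add_apply, map_add]
      map_smul' := fun c ψ => by
        rw [RingHom.id_apply, ← integral_smul]
        refine integral_congr_ae ?_
        filter_upwards [Lp.coeFn_smul c ψ] with x hx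
        rw [hx, Pi.smul_apply, map_smul] }
    (by
      obtain ⟨C, hC⟩ := h.2
      refine ⟨C, fun ψ => ?_⟩
      change ‖∫ x, Φ x (ψ x) ∂μ‖ ≤ C * ‖ψ‖
      rw [L1.norm_eq_integral_norm, ← integral_const_mul]
      refine (h.norm_integral_le (L1.integrable_coeFn ψ)).trans ?_
      refine integral_mono_ae (h.integrable_norm (L1.integrable_coeFn ψ))
        ((L1.integrable_coeFn ψ).norm.const_mul C) ?_
      filter_upwards [hC] with x hx
      exact mul_le_mul_of_nonneg_right hx (norm_nonneg _))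

theorem bochOp_apply (Φ : α → F →L[ℂ] G) (h : BddFam μ Φ) (ψ : Lp F 1 μ) :
    bochOp Φ h ψ = ∫ x, Φ x (ψ x) ∂μ := rfl

theorem bochOp_toL1 (Φ : α → F →L[ℂ] G) (h : BddFam μ Φ) {ψ : α → F} (hψ : Integrable ψ μ) :
    bochOp Φ h (hψ.toL1 ψ) = ∫ x, Φ x (ψ x) ∂μ := by
  rw [bochOp_apply]
  refine integral_congr_ae ?_
  filter_upwards [hψ.coeFn_toL1] with x hx
  rw [hx]

theorem norm_bochOp_apply_le (Φ : α → F →L[ℂ] G) (h : BddFam μ Φ) (ψ : Lp F 1 μ) :
    ‖bochOp Φ h ψ‖ ≤ ∫ x, ‖Φ x‖ * ‖ψ x‖ ∂μ :=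
  h.norm_integral_le (L1.integrable_coeFn ψ)

/-- Pointwise bound on the family gives a weighted bound of `bochOp`. -/
theorem norm_bochOp_apply_le_of_le (Φ : α → F →L[ℂ] G) (h : BddFam μ Φ) (ψ : Lp F 1 μ)
    {β : α → ℝ} (hβ : ∀ᵐ x ∂μ, ‖Φ x‖ ≤ β x) (hβi : Integrable (fun x => β x * ‖ψ x‖) μ) :
    ‖bochOp Φ h ψ‖ ≤ ∫ x, β x * ‖ψ x‖ ∂μ := by
  refine (norm_bochOp_apply_le Φ h ψ).trans
    (integral_mono_ae (h.integrable_norm (L1.integrable_coeFn ψ)) hβi ?_)
  filter_upwards [hβ] with x hx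
  exact mul_le_mul_of_nonneg_right hx (norm_nonneg _)

theorem norm_bochOp_le (Φ : α → F →L[ℂ] G) (h : BddFam μ Φ) {C : ℝ} (hC0 : 0 ≤ C)
    (hC : ∀ᵐ x ∂μ, ‖Φ x‖ ≤ C) : ‖bochOp Φ h‖ ≤ C := by
  refine ContinuousLinearMap.opNorm_le_bound _ hC0 fun ψ => ?_
  rw [L1.norm_eq_integral_norm, ← integral_const_mul]
  exact norm_bochOp_apply_le_of_le Φ h ψ hC ((L1.integrable_coeFn ψ).norm.const_mul C)

theorem BddFam.add {Φ Ψ : α → F →L[ℂ] G} (h : BddFam μ Φ) (h' : BddFam μ Ψ) :
    BddFam μ (fun x => Φ x + Ψ x) := by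
  obtain ⟨C, hC⟩ := h.2
  obtain ⟨C', hC'⟩ := h'.2
  refine ⟨h.1.add h'.1, C + C', ?_⟩
  filter_upwards [hC, hC'] with x hx hx'
  exact (norm_add_le _ _).trans (add_le_add hx hx')

theorem BddFam.sub {Φ Ψ : α → F →L[ℂ] G} (h : BddFam μ Φ) (h' : BddFam μ Ψ) :
    BddFam μ (fun x => Φ x - Ψ x) := by
  obtain ⟨C, hC⟩ := h.2
  obtain ⟨C', hC'⟩ := h'.2
  refine ⟨h.1.sub h'.1, C + C', ?_⟩
  filter_upwards [hC, hC'] with x hx hx'
  exact (norm_sub_le _ _).trans (add_le_add hx hx')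

theorem bochOp_sub {Φ Ψ : α → F →L[ℂ] G} (h : BddFam μ Φ) (h' : BddFam μ Ψ) :
    bochOp _ (h.sub h') = bochOp Φ h - bochOp Ψ h' := by
  ext ψ
  simp only [bochOp_apply, ContinuousLinearMap.sub_apply]
  rw [← integral_sub (h.integrable (L1.integrable_coeFn ψ))
    (h'.integrable (L1.integrable_coeFn ψ))]

theorem bochOp_add {Φ Ψ : α → F →L[ℂ] G} (h : BddFam μ Φ) (h' : BddFam μ Ψ) :
    bochOp _ (h.add h') = bochOp Φ h + bochOp Ψ h' := by
  ext ψ
  simp only [bochOp_apply, ContinuousLinearMap.add_apply]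
  rw [← integral_add (h.integrable (L1.integrable_coeFn ψ))
    (h'.integrable (L1.integrable_coeFn ψ))]

/-- Composition with a bounded operator on the left. -/
theorem BddFam.clm_comp {H : Type*} [NormedAddCommGroup H] [NormedSpace ℂ H]
    {Φ : α → F →L[ℂ] G} (h : BddFam μ Φ) (T : G →L[ℂ] H) : BddFam μ (fun x => T ∘L Φ x) := by
  obtain ⟨C, hC⟩ := h.2
  refine ⟨(ContinuousLinearMap.compL ℂ F G H T).continuous.comp_aestronglyMeasurable h.1,
    ‖T‖ * C, ?_⟩
  filter_upwards [hC] with x hx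
  exact (T.opNorm_comp_le _).trans (mul_le_mul_of_nonneg_left hx (norm_nonneg _))

theorem clm_bochOp [CompleteSpace G] {H : Type*} [NormedAddCommGroup H] [NormedSpace ℂ H]
    [CompleteSpace H]
    {Φ : α → F →L[ℂ] G} (h : BddFam μ Φ) (T : G →L[ℂ] H) (ψ : Lp F 1 μ) :
    T (bochOp Φ h ψ) = ∫ x, T (Φ x (ψ x)) ∂μ := by
  rw [bochOp_apply, ContinuousLinearMap.integral_comp_comm T (h.integrable (L1.integrable_coeFn ψ))]

theorem clm_comp_bochOp [CompleteSpace G] {H : Type*} [NormedAddCommGroup H] [NormedSpace ℂ H]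
    [CompleteSpace H]
    {Φ : α → F →L[ℂ] G} (h : BddFam μ Φ) (T : G →L[ℂ] H) :
    T ∘L bochOp Φ h = bochOp _ (h.clm_comp T) := by
  ext ψ
  rw [ContinuousLinearMap.comp_apply, clm_bochOp h T ψ]
  rfl

end Boch

section Mult

variable {α : Type*} [MeasurableSpace α] {μ : Measure α}
variable {F : Type*} [NormedAddCommGroup F] [NormedSpace ℂ F]
variable {G : Type*} [NormedAddCommGroup G] [NormedSpace ℂ G]

/-- The multiplier operator `ψ ↦ (x ↦ M x (ψ x))` on `L¹`. -/
noncomputable def multOp (M : α → F →L[ℂ] G) (h : BddFam μ M) : Lp F 1 μ →L[ℂ] Lp G 1 μ :=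
  LinearMap.mkContinuousOfExistsBound
    { toFun := fun ψ => (h.integrable (L1.integrable_coeFn ψ)).toL1 (fun x => M x (ψ x))
      map_add' := fun ψ₁ ψ₂ => by
        rw [← Integrable.toL1_add, Integrable.toL1_eq_toL1_iff]
        filter_upwards [Lp.coeFn_add ψ₁ ψ₂] with x hx
        rw [hx, Pi.add_apply, map_add, Pi.add_apply]
      map_smul' := fun c ψ => by
        rw [RingHom.id_apply, ← Integrable.toL1_smul, Integrable.toL1_eq_toL1_iff]
        filter_upwards [Lp.coeFn_smul c ψ] with x hx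
        rw [hx, Pi.smul_apply, map_smul] }
    (by
      obtain ⟨C, hC⟩ := h.2
      refine ⟨C, fun ψ => ?_⟩
      change ‖(h.integrable (L1.integrable_coeFn ψ)).toL1 (fun x => M x (ψ x))‖ ≤ C * ‖ψ‖
      rw [L1.norm_eq_integral_norm, L1.norm_eq_integral_norm, ← integral_const_mul]
      refine integral_mono_ae (L1.integrable_coeFn _).norm
        ((L1.integrable_coeFn ψ).norm.const_mul C) ?_
      filter_upwards [hC, (h.integrable (L1.integrable_coeFn ψ)).coeFn_toL1] with x hx hx'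
      rw [hx']
      exact (le_trans ((M x).le_opNorm _) (mul_le_mul_of_nonneg_right hx (norm_nonneg _))))

theorem multOp_coeFn (M : α → F →L[ℂ] G) (h : BddFam μ M) (ψ : Lp F 1 μ) :
    (multOp M h ψ : α → G) =ᵐ[μ] fun x => M x (ψ x) :=
  (h.integrable (L1.integrable_coeFn ψ)).coeFn_toL1

theorem multOp_toL1 (M : α → F →L[ℂ] G) (h : BddFam μ M) {ψ : α → F} (hψ : Integrable ψ μ) :
    multOp M h (hψ.toL1 ψ) = (h.integrable hψ).toL1 (fun x => M x (ψ x)) := by
  change (h.integrable (L1.integrable_coeFn (hψ.toL1 ψ))).toL1 _ = _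
  rw [Integrable.toL1_eq_toL1_iff]
  filter_upwards [hψ.coeFn_toL1] with x hx
  rw [hx]

theorem norm_multOp_apply_le (M : α → F →L[ℂ] G) (h : BddFam μ M) (ψ : Lp F 1 μ) :
    ‖multOp M h ψ‖ ≤ ∫ x, ‖M x‖ * ‖ψ x‖ ∂μ := by
  rw [L1.norm_eq_integral_norm]
  refine integral_mono_ae (L1.integrable_coeFn _).norm
    (h.integrable_norm (L1.integrable_coeFn ψ)) ?_
  filter_upwards [multOp_coeFn M h ψ] with x hx
  rw [hx]
  exact (M x).le_opNorm _

theorem norm_multOp_le (M : α → F →L[ℂ] G) (h : BddFam μ M) {C : ℝ} (hC0 : 0 ≤ C)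
    (hC : ∀ᵐ x ∂μ, ‖M x‖ ≤ C) : ‖multOp M h‖ ≤ C := by
  refine ContinuousLinearMap.opNorm_le_bound _ hC0 fun ψ => ?_
  rw [L1.norm_eq_integral_norm ψ, ← integral_const_mul]
  refine (norm_multOp_apply_le M h ψ).trans
    (integral_mono_ae (h.integrable_norm (L1.integrable_coeFn ψ))
      ((L1.integrable_coeFn ψ).norm.const_mul C) ?_)
  filter_upwards [hC] with x hx
  exact mul_le_mul_of_nonneg_right hx (norm_nonneg _)

/-- Composition of families. -/
theorem BddFam.comp {H : Type*} [NormedAddCommGroup H] [NormedSpace ℂ H]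
    {Φ : α → G →L[ℂ] H} {M : α → F →L[ℂ] G} (h : BddFam μ Φ) (h' : BddFam μ M) :
    BddFam μ (fun x => Φ x ∘L M x) := by
  obtain ⟨C, hC⟩ := h.2
  obtain ⟨C', hC'⟩ := h'.2
  refine ⟨(ContinuousLinearMap.compL ℂ F G H).aestronglyMeasurable_comp₂ h.1 h'.1, C * C', ?_⟩
  filter_upwards [hC, hC'] with x hx hx'
  exact ((Φ x).opNorm_comp_le _).trans
    (mul_le_mul hx hx' (norm_nonneg _) ((norm_nonneg _).trans hx))

theorem bochOp_comp_multOp {H : Type*} [NormedAddCommGroup H] [NormedSpace ℂ H]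
    {Φ : α → G →L[ℂ] H} {M : α → F →L[ℂ] G} (h : BddFam μ Φ) (h' : BddFam μ M) :
    bochOp Φ h ∘L multOp M h' = bochOp _ (h.comp h') := by
  ext ψ
  rw [ContinuousLinearMap.comp_apply, bochOp_apply, bochOp_apply]
  refine integral_congr_ae ?_
  filter_upwards [multOp_coeFn M h' ψ] with x hx
  rw [hx]
  rfl

theorem multOp_comp_multOp {H : Type*} [NormedAddCommGroup H] [NormedSpace ℂ H]
    {Φ : α → G →L[ℂ] H} {M : α → F →L[ℂ] G} (h : BddFam μ Φ) (h' : BddFam μ M) :
    multOp Φ h ∘L multOp M h' = multOp _ (h.comp h') := by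
  refine ContinuousLinearMap.ext fun ψ => ?_
  rw [ContinuousLinearMap.comp_apply]
  refine Lp.ext ?_
  filter_upwards [multOp_coeFn M h' ψ, multOp_coeFn Φ h (multOp M h' ψ),
    multOp_coeFn _ (h.comp h') ψ] with x hx hx' hx''
  rw [hx', hx, hx'']
  rfl

theorem multOp_add {M N : α → F →L[ℂ] G} (h : BddFam μ M) (h' : BddFam μ N) :
    multOp _ (h.add h') = multOp M h + multOp N h' := by
  refine ContinuousLinearMap.ext fun ψ => Lp.ext ?_
  rw [ContinuousLinearMap.add_apply]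
  filter_upwards [multOp_coeFn _ (h.add h') ψ, multOp_coeFn M h ψ, multOp_coeFn N h' ψ,
    Lp.coeFn_add (multOp M h ψ) (multOp N h' ψ)] with x h1 h2 h3 h4
  rw [h1, h4, Pi.add_apply, h2, h3]
  rfl

theorem multOp_congr {M N : α → F →L[ℂ] G} (h : BddFam μ M) (h' : BddFam μ N)
    (hMN : ∀ᵐ x ∂μ, M x = N x) : multOp M h = multOp N h' := by
  refine ContinuousLinearMap.ext fun ψ => Lp.ext ?_
  filter_upwards [multOp_coeFn M h ψ, multOp_coeFn N h' ψ, hMN] with x h1 h2 h3
  rw [h1, h2, h3]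

theorem bochOp_congr {M N : α → F →L[ℂ] G} (h : BddFam μ M) (h' : BddFam μ N)
    (hMN : ∀ᵐ x ∂μ, M x = N x) : bochOp M h = bochOp N h' := by
  refine ContinuousLinearMap.ext fun ψ => ?_
  rw [bochOp_apply, bochOp_apply]
  refine integral_congr_ae ?_
  filter_upwards [hMN] with x h3
  rw [h3]

end Mult

section Compact

variable {α : Type*} [MeasurableSpace α] {μ : Measure α}
variable {F : Type*} [NormedAddCommGroup F] [NormedSpace ℂ F]
variable {G : Type*} [NormedAddCommGroup G] [NormedSpace ℂ G]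

theorem bddFam_simpleFunc (s : SimpleFunc α (F →L[ℂ] G)) : BddFam μ (s : α → F →L[ℂ] G) := by
  obtain ⟨C, hC⟩ := s.exists_forall_norm_le
  exact ⟨s.stronglyMeasurable.aestronglyMeasurable, C, Eventually.of_forall hC⟩

theorem isCompactOperator_bochOp_simpleFunc [FiniteDimensional ℂ F] [CompleteSpace G]
    (s : SimpleFunc α (F →L[ℂ] G)) (h : BddFam μ (s : α → F →L[ℂ] G)) :
    IsCompactOperator (bochOp (s : α → F →L[ℂ] G) h) := by
  have : ProperSpace F := FiniteDimensional.proper ℂ F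
  have hFc : CompleteSpace F := FiniteDimensional.complete ℂ F
  revert h
  induction s using SimpleFunc.induction with
  | const c hs =>
    rename_i s
    intro h
    have h1 : BddFam μ (s.indicator (fun _ => ContinuousLinearMap.id ℂ F)) :=
      BddFam.mk' ((stronglyMeasurable_const.indicator hs).aestronglyMeasurable) 1 (by
        intro x
        by_cases hx : x ∈ s
        · simp only [hx, Set.indicator_of_mem]
          exact ContinuousLinearMap.norm_id_le
        · simp [hx])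
    have h2 : bochOp _ h = c ∘L bochOp _ h1 := by
      rw [clm_comp_bochOp h1 c]
      refine bochOp_congr _ _ (Eventually.of_forall fun x => ?_)
      by_cases hx : x ∈ s
      · simp [hx]
      · simp [hx]
    rw [h2]
    exact (isCompactOperator_of_locallyCompactSpace_rng c).comp_clm (bochOp _ h1)
  | add hdisj hf hg =>
    rename_i f g
    intro h
    have h2 : bochOp _ h = bochOp _ (bddFam_simpleFunc f) + bochOp _ (bddFam_simpleFunc g) := by
      rw [← bochOp_add]
      exact bochOp_congr _ _ (Eventually.of_forall fun x => by simp)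
    rw [h2]
    exact (hf _).add (hg _)

/-- A `bochOp` with totally bounded range and finite dimensional fibre is compact. -/
theorem isCompactOperator_bochOp_of_totallyBounded [FiniteDimensional ℂ F] [CompleteSpace G]
    {Φ : α → F →L[ℂ] G} (h : BddFam μ Φ) (hm : StronglyMeasurable Φ)
    (htb : TotallyBounded (range Φ)) : IsCompactOperator (bochOp Φ h) := by
  borelize (F →L[ℂ] G)
  have key : ∀ n : ℕ, ∃ s : SimpleFunc α (F →L[ℂ] G), ∀ x, ‖Φ x - s x‖ ≤ 1 / ((n : ℝ) + 1) := by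
    intro n
    have hε : (0 : ℝ) < 1 / ((n : ℝ) + 1) := by positivity
    obtain ⟨t, htf, ht⟩ := Metric.totallyBounded_iff.1 htb _ hε
    rcases t.eq_empty_or_nonempty with rfl | htne
    · refine ⟨0, fun x => ?_⟩
      have := ht (mem_range_self x)
      simp at this
    obtain ⟨e, he⟩ := htf.countable.exists_eq_range htne
    have hN : ∃ N : ℕ, ∀ y ∈ t, ∃ k ≤ N, e k = y := by
      choose! k hk using (fun y (hy : y ∈ t) => (by rw [he] at hy; exact hy : ∃ k, e k = y))
      obtain ⟨N, hN⟩ := (htf.image k).bddAbove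
      exact ⟨N, fun y hy => ⟨k y, hN (mem_image_of_mem k hy), hk y hy⟩⟩
    obtain ⟨N, hN⟩ := hN
    refine ⟨(SimpleFunc.nearestPt e N).comp Φ hm.measurable, fun x => ?_⟩
    have hx := ht (mem_range_self x)
    rw [mem_iUnion₂] at hx
    obtain ⟨y, hy, hxy⟩ := hx
    obtain ⟨k, hk, rfl⟩ := hN y hy
    have h1 := SimpleFunc.edist_nearestPt_le e (Φ x) hk
    rw [SimpleFunc.coe_comp, Function.comp_apply, ← dist_eq_norm, dist_comm]
    have h2 : dist (SimpleFunc.nearestPt e N (Φ x)) (Φ x) ≤ dist (e k) (Φ x) := by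
      rw [edist_dist, edist_dist] at h1
      exact (ENNReal.ofReal_le_ofReal_iff dist_nonneg).1 h1
    refine h2.trans ?_
    rw [dist_comm]
    exact (Metric.mem_ball.1 hxy).le
  choose s hs using key
  have hlim : Tendsto (fun n => bochOp (s n : α → F →L[ℂ] G) (bddFam_simpleFunc (μ := μ) (s n)))
      atTop (𝓝 (bochOp Φ h)) := by
    rw [tendsto_iff_norm_sub_tendsto_zero]
    refine squeeze_zero (fun _ => norm_nonneg _) (fun n => ?_) tendsto_one_div_add_atTop_nhds_zero_nat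
    rw [← bochOp_sub]
    refine norm_bochOp_le _ _ (by positivity) (Eventually.of_forall fun x => ?_)
    rw [← norm_neg, neg_sub]
    exact hs n x
  exact isCompactOperator_of_tendsto hlim
    (Eventually.of_forall fun n => isCompactOperator_bochOp_simpleFunc _ _)

/-- **Compactness**: a `bochOp` with continuous compactly supported family is compact. -/
theorem isCompactOperator_bochOp [TopologicalSpace α] [OpensMeasurableSpace α]
    [FiniteDimensional ℂ F] [CompleteSpace G]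
    {Φ : α → F →L[ℂ] G} (h : BddFam μ Φ) (hc : Continuous Φ) (hs : HasCompactSupport Φ) :
    IsCompactOperator (bochOp Φ h) := by
  have hK : IsCompact (range Φ) := hs.isCompact_range hc
  refine isCompactOperator_bochOp_of_totallyBounded h ?_ hK.totallyBounded
  exact hc.stronglyMeasurable_of_hasCompactSupport hs

end Compact

end Vale.Agent.P139.WA
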