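import Vale.Agent.P139.H769.WA1

/-!
# Block WA, file 2: translations, dilations, strong continuity on `L¹(E; F)`
-/

open MeasureTheory Filter Topology Set
open scoped ENNReal NNReal

namespace Vale.Agent.P139.WA

section Gen

/-- Density criterion for strong convergence of a bounded family. -/
theorem tendsto_clm_of_dense {ι X Y : Type*} [NormedAddCommGroup X] [NormedSpace ℂ X]
    [NormedAddCommGroup Y] [NormedSpace ℂ Y] {l : Filter ι} {T : ι → X →L[ℂ] Y}
    {T0 : X →L[ℂ] Y} {C : ℝ} (hC : ∀ᶠ i in l, ‖T i‖ ≤ C) {D : Set X} (hD : Dense D)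
    (h : ∀ x ∈ D, Tendsto (fun i => T i x) l (𝓝 (T0 x))) (x : X) :
    Tendsto (fun i => T i x) l (𝓝 (T0 x)) := by
  rcases l.eq_or_neBot with rfl | hne
  · exact tendsto_bot
  have hC0 : 0 ≤ C := by
    obtain ⟨i, hi⟩ := hC.exists
    exact (norm_nonneg _).trans hi
  rw [Metric.tendsto_nhds]
  intro ε hε
  set δ := ε / (3 * (C + ‖T0‖ + 1)) with hδ
  have hδ0 : 0 < δ := by positivity
  obtain ⟨y, hyD, hy⟩ := hD.exists_dist_lt x hδ0
  have hy' : ‖x - y‖ < δ := by rwa [dist_eq_norm] at hy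
  have h1 := (Metric.tendsto_nhds.1 (h y hyD)) (ε / 3) (by positivity)
  filter_upwards [hC, h1] with i hi hi'
  rw [dist_eq_norm] at hi' ⊢
  have e1 : T i x - T0 x = T i (x - y) + (T i y - T0 y) + T0 (y - x) := by
    rw [map_sub, map_sub]; abel
  have e2 : δ * (C + ‖T0‖ + 1) = ε / 3 := by
    rw [hδ]; field_simp
  calc ‖T i x - T0 x‖ ≤ ‖T i (x - y)‖ + ‖T i y - T0 y‖ + ‖T0 (y - x)‖ := by
        rw [e1]; exact norm_add₃_le
    _ ≤ C * ‖x - y‖ + ‖T i y - T0 y‖ + ‖T0‖ * ‖x - y‖ := by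
        gcongr
        · exact (T i).le_of_opNorm_le hi _
        · rw [norm_sub_rev x y]; exact T0.le_opNorm _
    _ ≤ C * δ + ‖T i y - T0 y‖ + ‖T0‖ * δ := by gcongr
    _ < C * δ + ε / 3 + ‖T0‖ * δ := by gcongr
    _ ≤ ε := by
        nlinarith [hδ0.le]

variable {α : Type*} [MeasurableSpace α] {μ : Measure α}
variable {F : Type*} [NormedAddCommGroup F] [NormedSpace ℂ F]
variable {G : Type*} [NormedAddCommGroup G] [NormedSpace ℂ G]

/-- Strong continuity of multiplier operators, by dominated convergence. -/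
theorem tendsto_multOp {ι : Type*} {l : Filter ι} [l.IsCountablyGenerated]
    {M : ι → α → F →L[ℂ] G} (h : ∀ i, BddFam μ (M i)) {M0 : α → F →L[ℂ] G} (h0 : BddFam μ M0)
    {C : ℝ} (hC : ∀ᶠ i in l, ∀ᵐ x ∂μ, ‖M i x‖ ≤ C)
    (hlim : ∀ᵐ x ∂μ, Tendsto (fun i => M i x) l (𝓝 (M0 x))) (ψ : Lp F 1 μ) :
    Tendsto (fun i => multOp (M i) (h i) ψ) l (𝓝 (multOp M0 h0 ψ)) := by
  obtain ⟨C0, hC0⟩ := h0.2
  rw [tendsto_iff_norm_sub_tendsto_zero]
  have hint : ∀ i, ‖multOp (M i) (h i) ψ - multOp M0 h0 ψ‖ = ∫ x, ‖M i x (ψ x) - M0 x (ψ x)‖ ∂μ := by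
    intro i
    rw [L1.norm_eq_integral_norm]
    refine integral_congr_ae ?_
    filter_upwards [multOp_coeFn (M i) (h i) ψ, multOp_coeFn M0 h0 ψ,
      Lp.coeFn_sub (multOp (M i) (h i) ψ) (multOp M0 h0 ψ)] with x h1 h2 h3
    rw [h3, Pi.sub_apply, h1, h2]
  simp_rw [hint]
  have h00 : (0 : ℝ) = ∫ x, (0 : ℝ) ∂μ := by simp
  rw [h00]
  refine tendsto_integral_filter_of_dominated_convergence (fun x => (C + C0) * ‖ψ x‖)
    (Eventually.of_forall fun i => ?_) ?_ ((L1.integrable_coeFn ψ).norm.const_mul _) ?_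
  · exact (((h i).aesm_apply (L1.integrable_coeFn ψ).1).sub
      (h0.aesm_apply (L1.integrable_coeFn ψ).1)).norm
  · filter_upwards [hC] with i hi
    filter_upwards [hi, hC0] with x hx hx0
    rw [Real.norm_of_nonneg (norm_nonneg _), add_mul]
    refine (norm_sub_le _ _).trans (add_le_add ?_ ?_)
    · exact (M i x).le_of_opNorm_le hx _
    · exact (M0 x).le_of_opNorm_le hx0 _
  · filter_upwards [hlim] with x hx
    have h1 : Tendsto (fun i => M i x (ψ x)) l (𝓝 (M0 x (ψ x))) :=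
      ((ContinuousLinearMap.apply ℂ G (ψ x)).continuous.tendsto (M0 x)).comp hx
    have h2 := (h1.sub_const (M0 x (ψ x))).norm
    simpa using h2

/-- Joint continuity from strong continuity and local boundedness. -/
theorem tendsto_clm_apply {ι X Y : Type*} [NormedAddCommGroup X] [NormedSpace ℂ X]
    [NormedAddCommGroup Y] [NormedSpace ℂ Y] {l : Filter ι} {T : ι → X →L[ℂ] Y}
    {T0 : X →L[ℂ] Y} {C : ℝ} (hC : ∀ᶠ i in l, ‖T i‖ ≤ C) {x : ι → X} {x0 : X}
    (hx : Tendsto x l (𝓝 x0)) (h : Tendsto (fun i => T i x0) l (𝓝 (T0 x0))) :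
    Tendsto (fun i => T i (x i)) l (𝓝 (T0 x0)) := by
  have h1 : Tendsto (fun i => T i (x i - x0)) l (𝓝 0) := by
    rw [tendsto_zero_iff_norm_tendsto_zero]
    have h2 : Tendsto (fun i => C * ‖x i - x0‖) l (𝓝 0) := by
      have := (tendsto_iff_norm_sub_tendsto_zero.1 hx).const_mul C
      simpa using this
    refine squeeze_zero' (Eventually.of_forall fun _ => norm_nonneg _) ?_ h2
    filter_upwards [hC] with i hi
    exact (T i).le_of_opNorm_le hi _
  have h3 := h1.add h
  simp only [zero_add] at h3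
  refine h3.congr fun i => ?_
  rw [map_sub]; abel

end Gen

section Space

variable {E : Type*} [NormedAddCommGroup E] [InnerProductSpace ℝ E] [FiniteDimensional ℝ E]
  [MeasurableSpace E] [BorelSpace E]
variable {F : Type*} [NormedAddCommGroup F] [NormedSpace ℝ F]

/-- The set of classes of continuous compactly supported functions is dense in `L¹ μ`. -/
theorem dense_cc (μ : Measure E) [IsLocallyFiniteMeasure μ] : Dense {ψ : Lp F 1 μ |
    ∃ (g : E → F) (_ : Continuous g) (_ : HasCompactSupport g) (hi : Integrable g μ),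
      ψ = hi.toL1 g} := by
  intro ψ
  rw [Metric.mem_closure_iff]
  intro ε hε
  obtain ⟨g, hgs, hgε, hgc, hgi⟩ :=
    (L1.integrable_coeFn ψ).exists_hasCompactSupport_integral_sub_le (half_pos hε)
  refine ⟨hgi.toL1 g, ⟨g, hgc, hgs, hgi, rfl⟩, ?_⟩
  rw [dist_eq_norm, L1.norm_eq_integral_norm]
  have : ∫ x, ‖(ψ - hgi.toL1 g : Lp F 1 μ) x‖ ∂μ = ∫ x, ‖ψ x - g x‖ ∂μ := by
    refine integral_congr_ae ?_
    filter_upwards [Lp.coeFn_sub ψ (hgi.toL1 g), hgi.coeFn_toL1] with x h1 h2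
    rw [h1, Pi.sub_apply, h2]
  rw [this]
  linarith

/-- `L¹` continuity of compactly supported continuous families. -/
theorem tendsto_integral_norm_sub_of_compact (μ : Measure E) [IsLocallyFiniteMeasure μ]
    {P : Type*} [TopologicalSpace P] {b : P → E → F}
    {p0 : P} {U : Set P} (hU : U ∈ 𝓝 p0) {K : Set E} (hK : IsCompact K)
    (hb : ContinuousOn (Function.uncurry b) (U ×ˢ univ))
    (hbK : ∀ p ∈ U, ∀ ξ, ξ ∉ K → b p ξ = 0) :
    Tendsto (fun p => ∫ ξ, ‖b p ξ - b p0 ξ‖ ∂μ) (𝓝 p0) (𝓝 0) := by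
  have hp0 : p0 ∈ U := mem_of_mem_nhds hU
  have h1 : ContinuousOn (fun p => ∫ ξ, ‖b p ξ - b p0 ξ‖ ∂μ) U := by
    refine continuousOn_integral_of_compact_support hK ?_ ?_
    · refine (hb.sub ?_).norm
      have : (fun q : P × E => b p0 q.2) = Function.uncurry b ∘ (fun q : P × E => (p0, q.2)) := rfl
      rw [this]
      refine hb.comp (by fun_prop) ?_
      rintro ⟨p, ξ⟩ _
      exact ⟨hp0, mem_univ _⟩
    · intro p ξ hp hξ
      simp [hbK p hp ξ hξ, hbK p0 hp0 ξ hξ]
  have h2 := (h1.continuousAt hU).tendsto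
  simpa using h2

end Space

section Comp

variable {α β : Type*} [MeasurableSpace α] [MeasurableSpace β] {μ : Measure α} {ν : Measure β}
variable {F : Type*} [NormedAddCommGroup F] [NormedSpace ℂ F]

theorem integrable_comp_of_map_le {f : β → F} (hf : Integrable f ν) {g : α → β}
    (hg : Measurable g) {C : ℝ≥0} (hle : μ.map g ≤ C • ν) : Integrable (fun x => f (g x)) μ := by
  have h1 : Integrable f (C • ν) := hf.smul_measure_nnreal
  have h2 : Integrable f (μ.map g) := h1.mono_measure hle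
  exact h2.comp_measurable hg

theorem qmp_of_map_le {g : α → β} (hg : Measurable g) {C : ℝ≥0} (hle : μ.map g ≤ C • ν) :
    Measure.QuasiMeasurePreserving g μ ν :=
  ⟨hg, (Measure.absolutelyContinuous_of_le hle).trans Measure.smul_absolutelyContinuous⟩

theorem integral_norm_comp_le {f : β → F} (hf : Integrable f ν) {g : α → β}
    (hg : Measurable g) {C : ℝ≥0} (hle : μ.map g ≤ C • ν) :
    ∫ x, ‖f (g x)‖ ∂μ ≤ C * ∫ y, ‖f y‖ ∂ν := by
  have h1 : Integrable f (C • ν) := hf.smul_measure_nnreal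
  have h2 : Integrable f (μ.map g) := h1.mono_measure hle
  calc ∫ x, ‖f (g x)‖ ∂μ = ∫ y, ‖f y‖ ∂(μ.map g) :=
        (integral_map hg.aemeasurable h2.norm.1).symm
    _ ≤ ∫ y, ‖f y‖ ∂(C • ν) :=
        integral_mono_measure hle (Eventually.of_forall fun _ => norm_nonneg _) h1.norm
    _ = C * ∫ y, ‖f y‖ ∂ν := by
        rw [integral_smul_nnreal_measure]
        rfl

/-- Composition operator `f ↦ f ∘ g` on `L¹`, for `map g μ ≤ C • ν`. -/
noncomputable def compOp (g : α → β) (hg : Measurable g) (C : ℝ≥0) (hle : μ.map g ≤ C • ν) :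
    Lp F 1 ν →L[ℂ] Lp F 1 μ :=
  LinearMap.mkContinuous
    { toFun := fun f => (integrable_comp_of_map_le (L1.integrable_coeFn f) hg hle).toL1
        (fun x => f (g x))
      map_add' := fun f₁ f₂ => by
        rw [← Integrable.toL1_add, Integrable.toL1_eq_toL1_iff]
        filter_upwards [(qmp_of_map_le hg hle).ae (Lp.coeFn_add f₁ f₂)] with x hx
        rw [hx]
        rfl
      map_smul' := fun c f => by
        rw [RingHom.id_apply, ← Integrable.toL1_smul, Integrable.toL1_eq_toL1_iff]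
        filter_upwards [(qmp_of_map_le hg hle).ae (Lp.coeFn_smul c f)] with x hx
        rw [hx]
        rfl }
    C (by
      intro f
      change ‖(integrable_comp_of_map_le (L1.integrable_coeFn f) hg hle).toL1
        (fun x => f (g x))‖ ≤ C * ‖f‖
      rw [L1.norm_eq_integral_norm, L1.norm_eq_integral_norm]
      refine (integral_congr_ae ?_).trans_le (integral_norm_comp_le (L1.integrable_coeFn f) hg hle)
      filter_upwards [(integrable_comp_of_map_le (L1.integrable_coeFn f) hg hle).coeFn_toL1]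
        with x hx
      rw [hx])

theorem compOp_coeFn (g : α → β) (hg : Measurable g) (C : ℝ≥0) (hle : μ.map g ≤ C • ν)
    (f : Lp F 1 ν) : (compOp (F := F) g hg C hle f : α → F) =ᵐ[μ] fun x => f (g x) :=
  (integrable_comp_of_map_le (L1.integrable_coeFn f) hg hle).coeFn_toL1

theorem norm_compOp_le (g : α → β) (hg : Measurable g) (C : ℝ≥0) (hle : μ.map g ≤ C • ν) :
    ‖compOp (F := F) g hg C hle‖ ≤ C :=
  LinearMap.mkContinuous_norm_le _ C.2 _

theorem compOp_toL1 (g : α → β) (hg : Measurable g) (C : ℝ≥0) (hle : μ.map g ≤ C • ν)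
    {f : β → F} (hf : Integrable f ν) : compOp (F := F) g hg C hle (hf.toL1 f) =
      (integrable_comp_of_map_le hf hg hle).toL1 (fun x => f (g x)) := by
  refine Lp.ext ?_
  filter_upwards [compOp_coeFn g hg C hle (hf.toL1 f), (qmp_of_map_le hg hle).ae hf.coeFn_toL1,
    (integrable_comp_of_map_le hf hg hle).coeFn_toL1] with x h1 h2 h3
  rw [h1, h2, h3]

end Comp

end Vale.Agent.P139.WA
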